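import Vale.Agent.P338.GS.Iface2

/-!
# P338, stage 5: commands on additional stacks, lifting of specifications

`vcs t t' l : Prog V (SSym E)`: a list of simple commands on the stacks `V` (any type), with
the scratch stacks `t`, `t'`.
-/

namespace Vale.Agent.P338.GS.H744

open Vale.Agent.P338 Vale.Agent.P338.GS

variable {ι V E : Type}

/-- Simple commands on stacks of any type. -/
inductive VC (V : Type) : Type
  | cp : V → V → VC V
  | clr : V → VC V
  | scl : ℕ → V → V → VC V
  | mul : V → V → V → VC V

section

variable [DecidableEq V]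

/-- The program of a command, with the scratch stacks `t`, `t'`. -/
def VC.prog (t t' : V) : VC V → Prog V (SSym E)
  | .cp a b => Prog.copyOnto a b t
  | .clr a => Prog.clear a
  | .scl k a b => Prog.forr a t (Prog.pushN k b mk)
  | .mul a c b => Prog.mulOnto a t c t' 1 b mk

/-- The effect of a command. -/
def VC.eff : VC V → Store V (SSym E) → Store V (SSym E)
  | .cp a b, s => Function.update s b (s a ++ s b)
  | .clr a, s => Function.update s a []
  | .scl k a b, s => Function.update s b (una ((s a).length * k) ++ s b)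
  | .mul a c b, s => Function.update s b (una ((s a).length * (s c).length) ++ s b)

/-- The condition under which a command works. -/
def VC.ok (t t' : V) : VC V → Store V (SSym E) → Prop
  | .cp a b, s => a ≠ b ∧ a ≠ t ∧ b ≠ t ∧ s t = []
  | .clr _, _ => True
  | .scl _ a b, s => a ≠ b ∧ a ≠ t ∧ b ≠ t ∧ s t = [] ∧ ∃ n, s a = una n
  | .mul a c b, s => a ≠ b ∧ a ≠ c ∧ c ≠ b ∧ a ≠ t ∧ b ≠ t ∧ c ≠ t ∧ a ≠ t' ∧ b ≠ t' ∧
      c ≠ t' ∧ t ≠ t' ∧ s t = [] ∧ s t' = [] ∧ (∃ n, s a = una n) ∧ ∃ n, s c = una n

/-- A bound for the time of a command. -/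
def VC.cost : VC V → Store V (SSym E) → ℕ
  | .cp a _, s => 6 * (s a).length + 1
  | .clr a, s => 3 * (s a).length
  | .scl k a _, s => (s a).length * (2 * k + 8) + 1
  | .mul a c _, s => (s a).length * ((s c).length * 10 + 8) + 1

theorem VC.runs (t t' : V) (c : VC V) (s : Store V (SSym E)) (h : c.ok t t' s) :
    Runs (c.prog t t') s (c.eff s) (c.cost s) := by
  cases c with
  | cp a b =>
    obtain ⟨h1, h2, h3, h4⟩ := h
    exact Runs.copyOnto h1 h2 h3 s h4
  | clr a => exact Runs.clear a s
  | scl k a b =>
    obtain ⟨h1, h2, h3, h4, n, h5⟩ := h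
    have r := Runs.scaleOnto (v := a) (t' := t) (i := b) h2 h1 h3.symm k (mk : SSym E) mk s n
        h5 h4
    refine (r.mono ?_).of_eq ?_
    · simp only [VC.cost]; rw [h5]; simp [una]
    · simp only [VC.eff]; rw [h5]; simp [una]
  | mul a c b =>
    obtain ⟨h1, h2, h3, h4, h5, h6, h7, h8, h9, h10, e5, e6, ⟨n, ha⟩, n', hc⟩ := h
    have r := Runs.mulOnto (u := a) (t := t) (v := c) (t' := t') (i := b) h4 h2 h7 h1 h6.symm
      h10 h5.symm h9 h3 h8.symm 1 (mk : SSym E) mk mk s n n' ha hc e5 e6
    refine (r.mono ?_).of_eq ?_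
    · simp only [VC.cost]; rw [ha, hc]; simp [una]
    · simp only [VC.eff]; rw [ha, hc]; simp [una]

/-- The program of a list of commands. -/
def vcs (t t' : V) : List (VC V) → Prog V (SSym E)
  | [] => Prog.skip
  | c :: l => (c.prog t t').seq (vcs t t' l)

/-- The effect of a list of commands. -/
def veffs : List (VC V) → Store V (SSym E) → Store V (SSym E)
  | [], s => s
  | c :: l, s => veffs l (c.eff s)

/-- The condition for a list of commands. -/
def voks (t t' : V) : List (VC V) → Store V (SSym E) → Prop
  | [], _ => True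
  | c :: l, s => c.ok t t' s ∧ voks t t' l (c.eff s)

/-- The time of a list of commands. -/
def vcosts : List (VC V) → Store V (SSym E) → ℕ
  | [], _ => 1
  | c :: l, s => c.cost s + 1 + vcosts l (c.eff s)

theorem vcs_spec (t t' : V) (l : List (VC V)) : ∀ s : Store V (SSym E), voks t t' l s →
    Runs (vcs t t' l) s (veffs l s) (vcosts l s) := by
  induction l with
  | nil => intro s _; exact Runs.skip s
  | cons c l ih => intro s h; exact (c.runs t t' s h.1).seq (ih _ h.2)

/-- Commands on the additional stacks. -/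
theorem vcs_up (t t' : V) (l : List (VC V)) (s : Store V (SSym E)) (h : voks t t' l s) :
    Runs ((vcs t t' l).map (Sum.inr : V → ι ⊕ V)) (up s) (up (veffs l s)) (vcosts l s) :=
  vlift_runs (vcs_spec t t' l s h) _

end

/-! ### Lifting -/

section

variable {Γ : Type} [DecidableEq ι] [DecidableEq V]

theorem elim_asg_nil (L : List (ι × List Γ)) :
    (Sum.elim (asg L) (fun _ => []) : Store (ι ⊕ V) Γ) =
      asg (L.map fun x => (Sum.inl x.1, x.2)) := by
  induction L with
  | nil => funext x; rcases x with i | v <;> rfl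
  | cons x r ih =>
    simp only [List.map_cons, asg]
    rw [← ih, elim_update_inl]

theorem up_asg (L : List (V × List Γ)) :
    (up (asg L) : Store (ι ⊕ V) Γ) = asg (L.map fun x => (Sum.inr x.1, x.2)) := by
  induction L with
  | nil => funext x; rcases x with i | v <;> rfl
  | cons x r ih =>
    simp only [List.map_cons, asg]
    rw [← ih]
    unfold up
    rw [elim_update_inr]

/-- A program of a lower level as a program of the next level, in terms of `asg`. -/
theorem lift_asg {p : Prog ι Γ} {L M : List (ι × List Γ)} {T : ℕ}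
    (h : Runs p (asg L) (asg M) T) :
    Runs (p.map (Sum.inl : ι → ι ⊕ V)) (asg (L.map fun x => (Sum.inl x.1, x.2)))
      (asg (M.map fun x => (Sum.inl x.1, x.2))) T := by
  have := lift_runs (V := V) h (fun _ => [])
  rwa [elim_asg_nil, elim_asg_nil] at this

end

/-! ### Lists -/

theorem rep_cat {α : Type} (R : ℕ) (l : List α) : rep R l = cat R fun _ => l := by
  induction R with
  | zero => rfl
  | succ n ih => rw [rep_succ, cat_succ', ih]

@[simp] theorem length_bits (l : List Bool) : (bits l : List (SSym E)).length = l.length := by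
  simp [bits]

@[simp] theorem length_una (n : ℕ) : (una n : List (SSym E)).length = n := by simp [una]

theorem length_bitsOf' (S x : ℕ) : (bitsOf S x).length = S := by simp [bitsOf]

theorem length_ar (S n : ℕ) (x : ℕ → ℕ) : (ar S n x : List (SSym E)).length = n * S := by
  unfold ar
  rw [length_bits, length_cat_of (L := S) fun i _ => length_bitsOf' ..]

theorem bits_cat' (n : ℕ) (f : ℕ → List Bool) :
    (bits (cat n f) : List (SSym E)) = cat n fun i => bits (f i) := map_cat _ _ _

theorem ar_cat (S n : ℕ) (x : ℕ → ℕ) :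
    (ar S n x : List (SSym E)) = cat n fun q => wd S (x q) := bits_cat' _ _

theorem length_wd (S x : ℕ) : (wd S x : List (SSym E)).length = S := by
  unfold wd; rw [length_bits, length_bitsOf']

theorem length_arr3 (X r Z S : ℕ) (e : ℕ → ℕ → ℕ → ℕ) :
    (arr3 X r Z S e).length = X * r * Z * S := by
  unfold arr3
  rw [length_cat_of (L := r * (Z * S)) fun x _ => length_cat_of fun i _ =>
    length_cat_of fun z _ => length_bitsOf' ..]
  ring

/-- Three-dimensional data as an array. -/
theorem arr3_ar (X r Z S : ℕ) (e : ℕ → ℕ → ℕ → ℕ) :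
    (bits (arr3 X r Z S e) : List (SSym E)) =
      ar S (X * r * Z) fun k => e (k / Z / r) (k / Z % r) (k % Z) := by
  unfold ar arr3
  congr 1
  rw [cat_mul (X * r), cat_mul X]
  refine cat_congr fun x _ => cat_congr fun i hi => cat_congr fun z hz => ?_
  have e1 : ((x * r + i) * Z + z) / Z = x * r + i := by
    rw [Nat.mul_comm, Nat.mul_add_div (by omega), Nat.div_eq_of_lt hz, Nat.add_zero]
  have e2 : ((x * r + i) * Z + z) % Z = z := by
    rw [Nat.mul_comm, Nat.mul_add_mod, Nat.mod_eq_of_lt hz]
  have e3 : (x * r + i) / r = x := by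
    rw [Nat.mul_comm, Nat.mul_add_div (by omega), Nat.div_eq_of_lt hi, Nat.add_zero]
  have e4 : (x * r + i) % r = i := by
    rw [Nat.mul_comm, Nat.mul_add_mod, Nat.mod_eq_of_lt hi]
  simp only [e1, e2, e3, e4]

end Vale.Agent.P338.GS.H744
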